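import Vale.Agent.P221.H746.Z6
import Vale.Agent.P221.T.SrcDef

/-!
# P221, part E, leaf (Z6): the closed statements for the assembly

`uu_unit_bp`, `uu_P_bp` : `UU 𝒴 B X (𝟙⟦k⟧)`, `UU 𝒴 B X (Pc⟦k⟧)` for `bs : BPS p B Pc W`.
-/

open CategoryTheory MonoidalCategory MonObj Limits Pretriangulated

set_option linter.unusedSectionVars false

universe u

namespace Vale.Agent.P221.E

open Vale.Agent.P251 Vale.Agent.P251.S Vale.Agent.P251.T Vale.Agent.P251.M Vale.Agent.P251.F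
  Vale.Agent.P251.I EvenSpheres Vale.Agent.P257.H80 Vale.Agent.P221.H246
open Vale.Agent.P221.H509 (DC)
open Vale.Agent.P257.H762 Vale.Agent.P093.N0
open Vale.Agent.P221.T (BPS)

variable {T : Type u} [Category.{0} T] [Preadditive T] [HasZeroObject T]
    [HasShift T ℤ] [∀ n : ℤ, (shiftFunctor T n).Additive] [Pretriangulated T] [IsTriangulated T]
    [MonoidalCategory T] [SymmetricCategory T] [TensorTriangulated T] [MonoidalClosed T]
    [HasCoproducts.{0} T] [HasProducts.{0} T] [StableCat T]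

variable {D : MUData T} {F : SpaceFunctor T} {e : F.S.obj CCF ≅ (stdEven T).L}
  {p : ℕ} [hp : Fact p.Prime] {B : T} [MonObj B] [IsCommMonObj B] {b : D.R ⟶ B} [IsMonHom b]
  {𝒴 : T → Prop} {m : ℕ} {n : ℤ} {X : T}

/-- **(Z6)** the spheres -/
theorem uu_unit_bp (hD : MUUniv e D) (hb : IsBPMon p b) (h𝒴 : ∀ Y, 𝒴 Y → Cls p B Y)
    (hn : Conn n X) (hXc : H395.PComplete p X) (hX : Fl 𝒴 m (OpSub.top B X)) (k : ℤ) :
    E.H509.UU 𝒴 B X ((𝟙_ T)⟦k⟧) :=
  uu_unit hD hb (fun Y hY => hasAct_of_modStr (h𝒴 Y hY).1.some) hn hXc hX k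

/-- **(Z6)** the suspensions of the completion -/
theorem uu_P_bp (hD : MUUniv e D) (hA : MUAll D) (hb : IsBPMon p b) {Pc W : T}
    (bs : BPS p B Pc W) (h𝒴 : ∀ Y, 𝒴 Y → Cls p B Y) (hn : Conn n X)
    (hXc : H395.PComplete p X) (hX : Fl 𝒴 m (OpSub.top B X)) (k : ℤ) :
    E.H509.UU 𝒴 B X (Pc⟦k⟧) := by
  obtain ⟨C, i, δ, hC⟩ := H746.exists_moore (𝒯 := T) (p : ℤ)
  have hc : IsIso (bs.c ▷ C) :=
    H395.isIso_mod_of_univ hC bs.c bs.cP fun Z hZ f => (bs.c_bij0' Z hZ).existsUnique f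
  exact uu_comp hC hD hA hb bs.MP bs.cP hc h𝒴 hn hXc hX k

/-- the groups `[A, Y]` of a `p`-complete object are derived `p`-complete -/
theorem uniq_hom {Y : T} (hY : H395.PComplete p Y) (A : T) : Vale.Agent.P221.T.H769.Uniq p (A ⟶ Y) := by
  obtain ⟨C, i, δ, hC⟩ := H746.exists_moore (𝒯 := T) (p : ℤ)
  exact Vale.Agent.P221.T.H769.uniq_of_dc (H509.dc_hom hC hY A)

end Vale.Agent.P221.E
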