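import Vale.Agent.P221.H924.Kos
import Vale.Agent.P257.H80.BPLib
import Vale.Agent.P093.N0.MU
import Vale.Agent.P251.Q.ModP
import Vale.Agent.P251.M.QOut

/-!
# P221 (helper746): the homotopy of the Brown-Peterson monoid modulo `p`

`D : MUData`, `b : D.R ⟶ B` a Brown-Peterson monoid at any prime `p`.

* `exists_kappa` : a surjection `κ : π_{2*} B → 𝔽_p[v_1, v_2, …]` with kernel `(p)`, which maps the
  formal group law of `B` to Hazewinkel's law modulo `p`;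
* `tf` : `π_{2*} B` has no `p`-torsion;
* `odd_div`, `odd_tf` : `p` is bijective on `π_odd B`.
-/

open CategoryTheory MonoidalCategory MonObj Limits Pretriangulated

set_option linter.unusedSectionVars false

universe u

namespace Vale.Agent.P221.H746

open Vale.Agent.P251 Vale.Agent.P251.S Vale.Agent.P251.T Vale.Agent.P251.M Vale.Agent.P251.F
  Vale.Agent.P251.I EvenSpheres Vale.Agent.P257.H80 Vale.Agent.P251.Q Vale.Agent.P221.H924
  Vale.Agent.P093.N0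

variable {𝒯 : Type u} [Category.{0} 𝒯] [Preadditive 𝒯] [HasZeroObject 𝒯]
    [HasShift 𝒯 ℤ] [∀ n : ℤ, (shiftFunctor 𝒯 n).Additive] [Pretriangulated 𝒯] [IsTriangulated 𝒯]
    [MonoidalCategory 𝒯] [SymmetricCategory 𝒯] [TensorTriangulated 𝒯] [MonoidalClosed 𝒯]
    [HasCoproducts.{0} 𝒯] [HasProducts.{0} 𝒯] [StableCat 𝒯]

/-! ### homotopy groups modulo `p` -/

theorem exact₁ {A B D W : 𝒯} {f : A ⟶ B} {g : B ⟶ D} {h : D ⟶ A⟦(1 : ℤ)⟧}
    (hT : Triangle.mk f g h ∈ distTriang 𝒯) (a : W ⟶ A⟦(1 : ℤ)⟧) (ha : a ≫ f⟦(1 : ℤ)⟧' = 0) :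
    ∃ b : W ⟶ D, a = b ≫ h :=
  Triangle.coyoneda_exact₁ _ hT a ha

/-- If every map `W⟦1⟧ ⟶ X ⊗ S/p` lifts to `X` then `W ⟶ X` has no `p`-torsion. -/
theorem torsionFree_of_lift {p : ℤ} {C : 𝒯} {i : 𝟙_ 𝒯 ⟶ C} {δ : C ⟶ (𝟙_ 𝒯)⟦(1 : ℤ)⟧}
    (hC : Triangle.mk (p • 𝟙 (𝟙_ 𝒯)) i δ ∈ distTriang 𝒯) {X W : 𝒯}
    (hl : ∀ f : W⟦(1 : ℤ)⟧ ⟶ X ⊗ C, ∃ a : W⟦(1 : ℤ)⟧ ⟶ X, f = a ≫ (ρ_ X).inv ≫ (X ◁ i))
    (a : W ⟶ X) (ha : p • a = 0) : a = 0 := by
  obtain ⟨m, hD⟩ := ModP.exists_dist hC X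
  obtain ⟨f, hf⟩ := exact₁ hD ((a ≫ (ρ_ X).inv)⟦(1 : ℤ)⟧') (by
    rw [← Functor.map_comp, Preadditive.comp_zsmul, Category.comp_id, ← Preadditive.zsmul_comp,
      ha, zero_comp, Functor.map_zero])
  obtain ⟨g, rfl⟩ := hl f
  have h1 : (X ◁ i) ≫ m = 0 := comp_distTriang_mor_zero₂₃ _ hD
  rw [Category.assoc, Category.assoc, h1, comp_zero, comp_zero] at hf
  have h2 : a ≫ (ρ_ X).inv = 0 := (shiftFunctor 𝒯 (1 : ℤ)).map_injective (by
    rw [hf, Functor.map_zero])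
  rw [← cancel_mono (ρ_ X).inv, h2, zero_comp]

/-- no `p`-torsion, and the odd homotopy is `p`-divisible -/
structure Good (p : ℕ) (X : 𝒯) : Prop where
  tfE : ∀ (w : ℤ) (a : (stdEven 𝒯).S w ⟶ X), (p : ℤ) • a = 0 → a = 0
  oddTf : ∀ (k : ℤ) (a : (𝟙_ 𝒯)⟦2 * k + 1⟧ ⟶ X), (p : ℤ) • a = 0 → a = 0
  oddDiv : ∀ (k : ℤ) (a : (𝟙_ 𝒯)⟦2 * k + 1⟧ ⟶ X), ∃ b, a = (p : ℤ) • b

theorem Good.retract {p : ℕ} {X Y : 𝒯} (h : Good p Y) (s : X ⟶ Y) (r : Y ⟶ X) (hs : s ≫ r = 𝟙 X) :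
    Good p X where
  tfE w a ha := by
    have h1 := h.tfE w (a ≫ s) (by rw [← Preadditive.zsmul_comp, ha, zero_comp])
    rw [← Category.comp_id a, ← hs, ← Category.assoc, h1, zero_comp]
  oddTf w a ha := by
    have h1 := h.oddTf w (a ≫ s) (by rw [← Preadditive.zsmul_comp, ha, zero_comp])
    rw [← Category.comp_id a, ← hs, ← Category.assoc, h1, zero_comp]
  oddDiv w a := by
    obtain ⟨b, hb⟩ := h.oddDiv w (a ≫ s)
    refine ⟨b ≫ r, ?_⟩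
    rw [← Preadditive.zsmul_comp, ← hb, Category.assoc, hs, Category.comp_id]

/-- Bezout -/
theorem exists_bezout {p : ℕ} (hp : p.Prime) {m : ℤ} (hm : ¬ (p : ℤ) ∣ m) :
    ∃ s t : ℤ, s * m + t * p = 1 := by
  have h1 : IsCoprime (p : ℤ) m := (Nat.prime_iff_prime_int.1 hp).coprime_iff_not_dvd.2 hm
  obtain ⟨t, s, h⟩ := h1
  exact ⟨s, t, by rw [add_comm]; exact h⟩

theorem zero_of_smul_of_local {p : ℕ} {A Y : 𝒯} (hY : LocO p Y) {m : ℤ} (hm : ¬ (p : ℤ) ∣ m)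
    (y : A ⟶ Y) (h : m • y = 0) : y = 0 := by
  have := hY m hm
  rw [← cancel_mono (m • 𝟙 Y), Preadditive.comp_zsmul, Category.comp_id, h, zero_comp]

theorem Good.loc {p : ℕ} (hp : p.Prime) {X Y : 𝒯} {l : X ⟶ Y} (hl : IsLocPi p l) (hY : LocO p Y)
    (h : Good p X) : Good p Y := by
  -- torsion
  have key : ∀ (n : ℤ) (_ : ∀ a : (𝟙_ 𝒯)⟦n⟧ ⟶ X, (p : ℤ) • a = 0 → a = 0)
      (y : (𝟙_ 𝒯)⟦n⟧ ⟶ Y), (p : ℤ) • y = 0 → y = 0 := by
    intro n hn y hy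
    obtain ⟨m, x, hm, hx⟩ := hl.num n y
    obtain ⟨m', hm', h1⟩ := hl.ker n ((p : ℤ) • x) (by
      rw [Preadditive.zsmul_comp, ← hx, smul_comm, hy, smul_zero])
    have h2 := hn (m' • x) (by rw [smul_comm, h1])
    refine zero_of_smul_of_local hY (not_dvd_mul hp hm' hm) y ?_
    rw [mul_smul, hx, ← Preadditive.zsmul_comp, h2, zero_comp]
  refine ⟨fun w a ha => ?_, fun k a ha => key _ (h.oddTf k) a ha, fun k a => ?_⟩
  · have h1 := key (2 * w) (fun a ha => by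
      have h2 := h.tfE w ((stdSph w).hom ≫ a) (by rw [← Preadditive.comp_zsmul, ha, comp_zero])
      rw [← cancel_epi (stdSph w).hom, h2, comp_zero]) ((stdSph w).inv ≫ a)
      (by rw [← Preadditive.comp_zsmul, ha, comp_zero])
    rw [← cancel_epi (stdSph w).inv, h1, comp_zero]
  · obtain ⟨m, x, hm, hx⟩ := hl.num _ a
    obtain ⟨c, rfl⟩ := h.oddDiv k x
    obtain ⟨s, t, hst⟩ := exists_bezout hp hm
    refine ⟨s • (c ≫ l) + t • a, ?_⟩
    rw [smul_add, smul_comm (p : ℤ) s, ← Preadditive.zsmul_comp, ← hx, smul_smul, smul_smul,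
      ← add_smul, mul_comm (p : ℤ) t, hst, one_smul]

variable {D : MUData 𝒯} {p : ℕ} [hp : Fact p.Prime]

theorem am_surj (hA : MUAll D) {C : 𝒯} {i : 𝟙_ 𝒯 ⟶ C} {δ : C ⟶ (𝟙_ 𝒯)⟦(1 : ℤ)⟧}
    (hC : Triangle.mk ((p : ℤ) • 𝟙 (𝟙_ 𝒯)) i δ ∈ distTriang 𝒯) (w : ℤ)
    (a : (stdEven 𝒯).S w ⟶ Am D.R (0 + 1)) :
    ∃ (z : Cob Laz 0) (a' c : (stdEven 𝒯).S w ⟶ Am D.R (0 + 1)), Cob.IsWt w z ∧
      D.ev 0 z = HRing.of (stdEven 𝒯) (Am D.R (0 + 1)) w a' ∧ a = a' + (p : ℤ) • c := by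
  obtain ⟨z, a', hz, h1, h2⟩ := hA.surj p 0 C i δ hC w (a ≫ (ρ_ _).inv ≫ (_ ◁ i))
  obtain ⟨c, hc⟩ := ModP.exists_zsmul_of_comp_eq_zero hC (a - a') (by
    rw [Preadditive.sub_comp, h2, sub_self])
  exact ⟨z, a', c, hz, h1, by rw [← hc]; abel⟩

theorem good_am (hA : MUAll D) {C : 𝒯} {i : 𝟙_ 𝒯 ⟶ C} {δ : C ⟶ (𝟙_ 𝒯)⟦(1 : ℤ)⟧}
    (hC : Triangle.mk ((p : ℤ) • 𝟙 (𝟙_ 𝒯)) i δ ∈ distTriang 𝒯) : Good p (Am D.R (0 + 1)) := by
  have hodd : ∀ (k : ℤ) (W : 𝒯) (_ : W ≅ (𝟙_ 𝒯)⟦2 * k + 1⟧) (f : W ⟶ Am D.R (0 + 1) ⊗ C), f = 0 := by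
    intro k W e f
    rw [← cancel_epi e.inv, hA.odd p 0 C i δ hC k (e.inv ≫ f), comp_zero]
  refine ⟨fun w a ha => ?_, fun k a ha => ?_, fun k a => ?_⟩
  · refine torsionFree_of_lift hC (fun f => ⟨0, ?_⟩) a ha
    rw [zero_comp]
    refine hodd w _ ((shiftFunctor 𝒯 (1 : ℤ)).mapIso (stdSph w) ≪≫
      ((shiftFunctorAdd' 𝒯 (2 * w) 1 (2 * w + 1) rfl).app _).symm) f
  · refine torsionFree_of_lift hC (fun f => ?_) a ha
    have e : (stdEven 𝒯).S (k + 1) ≅ ((𝟙_ 𝒯)⟦2 * k + 1⟧)⟦(1 : ℤ)⟧ :=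
      stdSph (k + 1) ≪≫ (shiftFunctorAdd' 𝒯 (2 * k + 1) 1 (2 * (k + 1)) (by ring)).app _
    obtain ⟨_, a', _, _, h2⟩ := hA.surj p 0 C i δ hC (k + 1) (e.hom ≫ f)
    refine ⟨e.inv ≫ a', ?_⟩
    rw [← cancel_epi e.hom, h2, Category.assoc, Iso.hom_inv_id_assoc]
  · exact ModP.exists_zsmul_of_comp_eq_zero hC a (hA.odd p 0 C i δ hC k _)

/-- the cofibre of `p` -/
theorem exists_moore (p : ℤ) : ∃ (C : 𝒯) (i : 𝟙_ 𝒯 ⟶ C) (δ : C ⟶ (𝟙_ 𝒯)⟦(1 : ℤ)⟧),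
    Triangle.mk (p • 𝟙 (𝟙_ 𝒯)) i δ ∈ distTriang 𝒯 :=
  distinguished_cocone_triangle _

theorem good_mu (hA : MUAll D) : Good p D.R := by
  obtain ⟨C, i, δ, hC⟩ := exists_moore (𝒯 := 𝒯) (p : ℤ)
  exact (good_am hA hC).retract (Am.v D.R (0 : Fin 1)) (amOne D.R) (v_amOne D.R)

/-! ### the ring -/

section ring

variable {K : 𝒯} [MonObj K] [IsCommMonObj K]

theorem lift_lawOf (u : D.R ⟶ K) [IsMonHom u] (z : Laz) :
    Laz.lift (lawOf u) z = evK u (MvPolynomial.C z) := by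
  rw [lawOf_eq, Laz.lift_map_univ]
  rfl

theorem exists_C (z : Cob Laz 0) : ∃ z' : Laz, z = MvPolynomial.C z' := by
  obtain ⟨z', h⟩ := MvPolynomial.C_surjective (R := Laz) (Fin 0 × ℕ) z
  exact ⟨z', h.symm⟩

/-- `HRing.of` and integer multiples -/
theorem of_zsmul' (w m : ℤ) (a : (stdEven 𝒯).S w ⟶ K) : HRing.of (stdEven 𝒯) K w (m • a) =
    (m : HRing (stdEven 𝒯) K) * HRing.of (stdEven 𝒯) K w a := by
  have h : HRing.of (stdEven 𝒯) K w (m • a) = m • HRing.of (stdEven 𝒯) K w a :=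
    map_zsmul (DirectSum.of ((stdEven 𝒯).Gr K) w) _ _
  rw [h, zsmul_eq_mul]

theorem of_add' (w : ℤ) (a a' : (stdEven 𝒯).S w ⟶ K) : HRing.of (stdEven 𝒯) K w (a + a') =
    HRing.of (stdEven 𝒯) K w a + HRing.of (stdEven 𝒯) K w a' :=
  map_add (DirectSum.of ((stdEven 𝒯).Gr K) w) _ _

/-- homogeneous elements of a localization of `MU` -/
theorem exists_lift_of (hA : MUAll D) {l : D.R ⟶ K} [IsMonHom l] (hl : IsLocPi p l) (w : ℤ)
    (y : (stdEven 𝒯).S w ⟶ K) : ∃ (z : Laz) (y' : HRing (stdEven 𝒯) K),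
      HRing.of (stdEven 𝒯) K w y = Laz.lift (lawOf l) z + (p : HRing (stdEven 𝒯) K) * y' := by
  obtain ⟨C, i, δ, hC⟩ := exists_moore (𝒯 := 𝒯) (p : ℤ)
  obtain ⟨m, x, hm, hx⟩ := hl.num' ⟨2 * w, ⟨stdSph w⟩⟩ y
  obtain ⟨z, a', c, _, hz, h1⟩ := am_surj hA hC w (x ≫ Am.v D.R (0 : Fin 1))
  obtain ⟨s, t, hst⟩ := exists_bezout hp.out hm
  obtain ⟨z', rfl⟩ := exists_C z
  have h2 : x = (a' + (p : ℤ) • c) ≫ amOne D.R := by
    rw [← h1, Category.assoc, v_amOne, Category.comp_id]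
  have h3 : HRing.of (stdEven 𝒯) K w (a' ≫ amOne D.R ≫ l) = Laz.lift (lawOf l) z' := by
    rw [lift_lawOf, evK, RingHom.comp_apply, hz, HRing.map_of]
  have h4 : y = s • (a' ≫ amOne D.R ≫ l) + (p : ℤ) • (s • (c ≫ amOne D.R ≫ l) + t • y) := by
    have h5 : m • y = a' ≫ amOne D.R ≫ l + (p : ℤ) • (c ≫ amOne D.R ≫ l) := by
      rw [hx, h2]
      simp only [Preadditive.add_comp, Preadditive.zsmul_comp, Category.assoc]
    have h6 : y = s • (m • y) + (p : ℤ) • (t • y) := by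
      rw [smul_smul, smul_smul, ← add_smul, mul_comm (p : ℤ) t, hst, one_smul]
    conv_lhs => rw [h6, h5]
    simp only [smul_add, smul_comm s (p : ℤ)]
    abel
  refine ⟨s • z', HRing.of (stdEven 𝒯) K w (s • (c ≫ amOne D.R ≫ l) + t • y), ?_⟩
  conv_lhs => rw [h4]
  rw [of_add', of_zsmul', of_zsmul', h3, map_zsmul, zsmul_eq_mul, Int.cast_natCast]

theorem exists_lift (hA : MUAll D) {l : D.R ⟶ K} [IsMonHom l] (hl : IsLocPi p l)
    (y : HRing (stdEven 𝒯) K) : ∃ (z : Laz) (y' : HRing (stdEven 𝒯) K),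
      y = Laz.lift (lawOf l) z + (p : HRing (stdEven 𝒯) K) * y' := by
  induction y using DirectSum.induction_on with
  | zero => exact ⟨0, 0, by simp⟩
  | of w a => exact exists_lift_of hA hl w a
  | add x y hx hy =>
    obtain ⟨z, y', rfl⟩ := hx
    obtain ⟨z', y'', rfl⟩ := hy
    exact ⟨z + z', y' + y'', by rw [map_add]; ring⟩

/-- homogeneous elements of the kernel -/
theorem ker_of (hA : MUAll D) {l : D.R ⟶ K} [IsMonHom l] (hl : IsLocPi p l) (w : ℤ)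
    (z : Cob Laz 0) (hz : Cob.IsWt w z) (y : (stdEven 𝒯).S w ⟶ K)
    (h : evK l z = HRing.of (stdEven 𝒯) K w ((p : ℤ) • y)) : ∃ z' : Cob Laz 0, z = (p : ℤ) • z' := by
  obtain ⟨C, i, δ, hC⟩ := exists_moore (𝒯 := 𝒯) (p : ℤ)
  obtain ⟨a, ha⟩ := D.ev_wt 0 w z hz
  have h1 : (a ≫ amOne D.R) ≫ l = (p : ℤ) • y := by
    apply of_injective
    rw [← h, evK, RingHom.comp_apply, ha, HRing.map_of, Category.assoc]
  have hS : Vale.Agent.P257.H702.IsSph ((stdEven 𝒯).S w) := ⟨2 * w, ⟨stdSph w⟩⟩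
  obtain ⟨m, x, hm, hx⟩ := hl.num' hS y
  obtain ⟨m', hm', h2⟩ := hl.ker' hS (m • (a ≫ amOne D.R) - (p : ℤ) • x) (by
    rw [Preadditive.sub_comp, Preadditive.zsmul_comp, Preadditive.zsmul_comp, h1, ← hx, smul_comm,
      sub_self])
  have h3 : (m' * m) • (a ≫ amOne D.R) = (p : ℤ) • (m' • x) := by
    rw [smul_sub, sub_eq_zero] at h2
    rw [mul_smul, h2, smul_comm]
  have h4 : (m' * m) • a = (p : ℤ) • (m' • x ≫ Am.v D.R (0 : Fin 1)) := by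
    have h5 := congrArg (fun f => f ≫ Am.v D.R (0 : Fin 1)) h3
    rw [Preadditive.zsmul_comp, Category.assoc, amOne_v_zero, Preadditive.zsmul_comp,
      Preadditive.zsmul_comp] at h5
    rw [← h5]
    exact congrArg _ (Category.comp_id a).symm
  obtain ⟨z', _, hz'⟩ := hA.ker p 0 C i δ hC w ((m' * m) • z)
    (AddSubgroup.zsmul_mem (Cob.wt Laz 0 w) hz (m' * m)) ((m' * m) • a)
    (by
      rw [map_zsmul, ha]
      exact (map_zsmul (DirectSum.of ((stdEven 𝒯).Gr (Am D.R (0 + 1))) w) _ _).symm)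
    (by rw [h4]; exact ModP.zsmul_comp_eq_zero hC _)
  obtain ⟨s, t, hst⟩ := exists_bezout hp.out (not_dvd_mul hp.out hm' hm)
  refine ⟨s • z' + t • z, ?_⟩
  have h6 : z = s • ((m' * m) • z) + (p : ℤ) • (t • z) := by
    rw [smul_smul, smul_smul, ← add_smul, mul_comm (p : ℤ) t, hst, one_smul]
  rw [smul_add, smul_comm (p : ℤ) s, ← hz', ← h6]

theorem exists_of_lift_eq (hA : MUAll D) {l : D.R ⟶ K} [IsMonHom l] (hl : IsLocPi p l)
    (z : Laz) (y : HRing (stdEven 𝒯) K) (h : Laz.lift (lawOf l) z = (p : HRing (stdEven 𝒯) K) * y) :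
    ∃ z' : Laz, z = (p : ℤ) • z' := by
  set ζ : Cob Laz 0 := MvPolynomial.C z with hζ
  rw [lift_lawOf] at h
  have hb : ∀ w, ∃ b : (stdEven 𝒯).S w ⟶ K, evK l (Cob.proj w ζ) = HRing.of (stdEven 𝒯) K w b :=
    fun w => isHomog_evK l (Cob.isWt_proj w ζ)
  choose b hb using hb
  have h1 : ∀ w ∈ Cob.wts ζ, b w = (p : ℤ) • (y w : (stdEven 𝒯).S w ⟶ K) := by
    intro w hw
    have h2 : evK l ζ = ∑ v ∈ Cob.wts ζ, HRing.of (stdEven 𝒯) K v (b v) := by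
      conv_lhs => rw [← Cob.sum_proj ζ, map_sum]
      exact Finset.sum_congr rfl fun v _ => hb v
    have h3 : (evK l ζ : HRing (stdEven 𝒯) K) w = b w := by
      rw [h2]
      have h4 : (∑ v ∈ Cob.wts ζ, HRing.of (stdEven 𝒯) K v (b v) : HRing (stdEven 𝒯) K) w =
          ∑ v ∈ Cob.wts ζ, (HRing.of (stdEven 𝒯) K v (b v) : HRing (stdEven 𝒯) K) w :=
        DFinsupp.finsetSum_apply _ _ _
      rw [h4, Finset.sum_eq_single w]
      · exact DirectSum.of_eq_same (β := (stdEven 𝒯).Gr K) _ _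
      · intro v _ hv
        exact DirectSum.of_eq_of_ne (β := (stdEven 𝒯).Gr K) v w (b v) (fun h => hv h.symm)
      · intro h
        exact absurd hw h
    rw [← h3, h]
    have h5 : (p : HRing (stdEven 𝒯) K) * y = (p : ℤ) • y := by
      rw [zsmul_eq_mul, Int.cast_natCast]
    rw [h5]
    exact DFinsupp.zsmul_apply _ _ _
  have h2 : ∀ w, ∃ z' : Cob Laz 0, w ∈ Cob.wts ζ → Cob.proj w ζ = (p : ℤ) • z' := by
    intro w
    by_cases hw : w ∈ Cob.wts ζ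
    · obtain ⟨z', hz'⟩ := ker_of hA hl w _ (Cob.isWt_proj w ζ) (y w) (by rw [hb, h1 w hw])
      exact ⟨z', fun _ => hz'⟩
    · exact ⟨0, fun h => absurd h hw⟩
  choose ζ' hζ' using h2
  obtain ⟨z', hz'⟩ := exists_C (∑ w ∈ Cob.wts ζ, ζ' w)
  refine ⟨z', ?_⟩
  apply MvPolynomial.C_injective (Fin 0 × ℕ) Laz
  rw [map_zsmul, ← hz', Finset.smul_sum, ← hζ, ← Finset.sum_congr rfl fun w hw => hζ' w hw,
    Cob.sum_proj ζ]

end ring

/-! ### the characteristic homomorphism -/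

/-- `κ_G` for a law `G` over a ring with `p = 0` -/
theorem exists_kappa_loc (hA : MUAll D) {K : 𝒯} [MonObj K] [IsCommMonObj K] {l : D.R ⟶ K}
    [IsMonHom l] (hl : IsLocPi p l) {A : Type} [CommRing A] (hA0 : (p : A) = 0) (G : Law A) :
    ∃ κ : HRing (stdEven 𝒯) K →+* A, (lawOf l).map κ = G := by
  let I : Ideal (HRing (stdEven 𝒯) K) := Ideal.span {(p : HRing (stdEven 𝒯) K)}
  let f : Laz →+* HRing (stdEven 𝒯) K ⧸ I := (Ideal.Quotient.mk I).comp (Laz.lift (lawOf l))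
  have hf : Function.Surjective f := by
    intro y
    obtain ⟨y, rfl⟩ := Ideal.Quotient.mk_surjective y
    obtain ⟨z, y', rfl⟩ := exists_lift hA hl y
    refine ⟨z, ?_⟩
    change Ideal.Quotient.mk I _ = Ideal.Quotient.mk I _
    rw [Ideal.Quotient.mk_eq_mk_iff_sub_mem]
    have h1 : Laz.lift (lawOf l) z - (Laz.lift (lawOf l) z + (p : HRing (stdEven 𝒯) K) * y') =
        (p : HRing (stdEven 𝒯) K) * (-y') := by ring
    rw [h1]
    exact Ideal.mul_mem_right _ _ (Ideal.subset_span rfl)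
  have hk : RingHom.ker f ≤ RingHom.ker (Laz.lift G) := by
    intro z hz
    rw [RingHom.mem_ker] at hz ⊢
    have h1 : Laz.lift (lawOf l) z ∈ I := Ideal.Quotient.eq_zero_iff_mem.1 hz
    obtain ⟨y, hy⟩ := Ideal.mem_span_singleton'.1 h1
    obtain ⟨z', rfl⟩ := exists_of_lift_eq hA hl z y (by rw [← hy, mul_comm])
    rw [map_zsmul, zsmul_eq_mul, Int.cast_natCast, hA0, zero_mul]
  let g : HRing (stdEven 𝒯) K ⧸ I →+* A := f.liftOfSurjective hf ⟨Laz.lift G, hk⟩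
  have hg : ∀ z, g (f z) = Laz.lift G z := fun z =>
    f.liftOfSurjective_comp_apply hf ⟨Laz.lift G, hk⟩ z
  refine ⟨g.comp (Ideal.Quotient.mk I), ?_⟩
  apply Laz.lift_injective
  refine RingHom.ext fun z => ?_
  rw [← Laz.map_lift, ← hg]
  rfl

theorem pLoc_of_char {A : Type} [CommRing A] (hA0 : (p : A) = 0) : PLoc p A := by
  intro m hm
  have h1 : IsCoprime (p : ℤ) (m : ℤ) := (Nat.prime_iff_prime_int.1 hp.out).coprime_iff_not_dvd.2
    fun h => hm (Int.natCast_dvd_natCast.1 h)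
  obtain ⟨t, s, h⟩ := h1
  have h2 := congrArg (Int.cast : ℤ → A) h
  push_cast at h2
  rw [hA0, mul_zero, zero_add] at h2
  exact IsUnit.of_mul_eq_one (s : A) (by rw [mul_comm]; exact h2)

/-- the elements `v_{a+1}` generate `𝔽_p[v_1, v_2, …]` -/
theorem lift_hazk_surjective : Function.Surjective (Laz.lift (hazk p)) := by
  have h1 : Function.Surjective (MvPolynomial.aeval (R := ZMod p) (vk p)) := by
    have h2 := gen_bijective p (n := 0) (x := vk p) (fun j _ => vk_isWH p j)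
      (fun j _ => by rw [coeff_vk]; exact one_ne_zero)
    have h3 : gen p 0 (vk p) = vk p := by
      funext a
      rw [gen, if_neg (Nat.not_lt_zero a)]
    rw [h3] at h2
    exact h2.2
  intro y
  obtain ⟨g, rfl⟩ := h1 y
  rw [← RingHom.mem_range]
  induction g using MvPolynomial.induction_on with
  | C a =>
    obtain ⟨m, rfl⟩ := ZMod.intCast_surjective a
    rw [MvPolynomial.aeval_C, map_intCast]
    exact intCast_mem _ m
  | add f g hf hg =>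
    rw [map_add]
    exact add_mem hf hg
  | mul_X f i hf =>
    rw [map_mul, MvPolynomial.aeval_X]
    refine mul_mem hf ⟨Laz.v p (i + 1), ?_⟩
    rw [vk, Laz.v, ← vv_map, Laz.univ_map_lift]

section bp

variable {F : SpaceFunctor 𝒯} {e : F.S.obj CCF ≅ (stdEven 𝒯).L}
  {B : 𝒯} [MonObj B] [IsCommMonObj B] {b : D.R ⟶ B} [IsMonHom b]

/-- `B` is a retract of the localization of `MU`. -/
theorem exists_retract (hD : MUUniv e D) (hb : IsBPMon p b) :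
    ∃ (Rp : 𝒯) (_ : MonObj Rp) (_ : IsCommMonObj Rp) (l : D.R ⟶ Rp) (_ : IsMonHom l)
      (hl : Vale.Agent.P257.H604.IsPLoc p l) (f : B ⟶ Rp) (_ : IsMonHom f) (g : Rp ⟶ B) (_ : IsMonHom g),
      l ≫ g = b ∧ f ≫ g = 𝟙 B ∧ b ≫ f = typM hD (IsPLoc.isLoc hl).loc l := by
  obtain ⟨Rp, i1, i2, l, i3, hl⟩ := Vale.Agent.P257.H604.exists_isPLoc hp.out D.R
  have hl' : IsLoc p l := IsPLoc.isLoc hl
  obtain ⟨f, i4, hf⟩ := hb.exists_map Rp hl'.loc (typM hD hl'.loc l) _ (lawOf_typM hD hl'.loc l)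
  obtain ⟨g, i5, hg⟩ := hl'.exists_mon hb.loc b
  refine ⟨Rp, i1, i2, l, i3, hl, f, i4, g, i5, hg, ?_, hf⟩
  apply hb.uniq B hb.loc
  obtain ⟨φ, hφ⟩ := hb.law
  rw [← Category.assoc, hf, ← typM_comp hD hl'.loc l hb.loc g, Category.comp_id]
  exact (typM_congr hD hb.loc hg).trans (typM_eq hD hb.loc b hφ)

theorem good_bp (hD : MUUniv e D) (hA : MUAll D) (hb : IsBPMon p b) : Good p B := by
  obtain ⟨Rp, _, _, l, _, hl, f, _, g, _, _, hfg, _⟩ := exists_retract hD hb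
  exact ((good_mu hA).loc hp.out (IsPLoc.isLocPi hl) hl.loc).retract f g hfg

/-- **the homotopy of the Brown-Peterson monoid modulo `p`** -/
theorem exists_kappa (hD : MUUniv e D) (hA : MUAll D) (hb : IsBPMon p b) :
    ∃ κ : HRing (stdEven 𝒯) B →+* MvPolynomial ℕ (ZMod p), Function.Surjective κ ∧
      (∀ y, κ y = 0 → ∃ y', y = (p : HRing (stdEven 𝒯) B) * y') ∧ (lawOf b).map κ = hazk p := by
  obtain ⟨Rp, _, _, l, _, hl, f, _, g, _, hlg, hfg, hbf⟩ := exists_retract hD hb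
  have hloc := (IsPLoc.isLoc hl).loc
  have h0 : ((p : ℕ) : MvPolynomial ℕ (ZMod p)) = 0 := natCast_zero p
  obtain ⟨κ', hκ'⟩ := exists_kappa_loc hA (IsPLoc.isLocPi hl) h0 (hazk p)
  set κ : HRing (stdEven 𝒯) B →+* MvPolynomial ℕ (ZMod p) := κ'.comp (HRing.map f) with hκ
  have hlaw : (lawOf b).map κ = hazk p := by
    have h1 : (lawOf b).map κ = (lawOf (b ≫ f)).map κ' := by
      rw [hκ, ← Law.map_map, ← lawOf_comp]
    rw [h1, lawOf_congr hbf, lawOf_typM, Law.map_map, comp_vS]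
    have h2 : (fun n => κ' (typ p (pLoc_of_locO hloc) (lawOf l) n)) =
        typ p (pLoc_of_char h0) (hazk p) := by
      funext n
      rw [← typ_map p (pLoc_of_locO hloc) (pLoc_of_char h0), hκ']
    rw [h2]
    unfold hazk
    rw [typ_haz, vS_seqV]
  have hlift : ∀ z : Laz, κ (Laz.lift (lawOf b) z) = Laz.lift (hazk p) z := by
    intro z
    rw [Laz.map_lift, hlaw]
  refine ⟨κ, ?_, ?_, hlaw⟩
  · intro y
    obtain ⟨z, rfl⟩ := lift_hazk_surjective y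
    exact ⟨_, hlift z⟩
  · intro y hy
    -- `y = lift z + p y'`
    obtain ⟨z, y', hz⟩ := exists_lift hA (IsPLoc.isLocPi hl) (HRing.map f y)
    have h1 : y = Laz.lift (lawOf b) z + (p : HRing (stdEven 𝒯) B) * HRing.map g y' := by
      have h2 : y = HRing.map g (HRing.map f y) := by
        rw [← RingHom.comp_apply, ← HRing.map_comp, HRing_map_congr' hfg, HRing.map_id,
          RingHom.id_apply]
      rw [h2, hz, map_add, map_mul, map_natCast, Laz.map_lift, ← lawOf_comp, lawOf_congr hlg]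
    have h3 : Laz.lift (hazk p) z = 0 := by
      rw [← hlift]
      have h4 := congrArg κ h1
      rw [hy, map_add, map_mul, map_natCast, h0, zero_mul, add_zero] at h4
      exact h4.symm
    -- the kernel of the reduction modulo `p`
    have h4 : redP p (Laz.lift (haz p) z) = 0 := by
      rw [Laz.map_lift]
      exact h3
    have h5 : (MvPolynomial.C (p : ℤ) : MvPolynomial ℕ ℤ) ∣ Laz.lift (haz p) z := by
      rw [MvPolynomial.C_dvd_iff_map_hom_eq_zero (Int.castRingHom (ZMod p)) (p : ℤ)]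
      · exact h4
      · intro c'
        rw [eq_intCast, ZMod.intCast_zmod_eq_zero_iff_dvd]
    obtain ⟨h, hh⟩ := h5
    obtain ⟨φ, hφ⟩ := hb.law
    refine ⟨φ h + HRing.map g y', ?_⟩
    rw [mul_add, h1]
    congr 1
    rw [hφ, ← Laz.map_lift, hh, map_mul]
    congr 1
    rw [← Int.cast_natCast, ← Int.cast_natCast]
    simp

theorem of_eq_zero {w : ℤ} {K : 𝒯} {a : (stdEven 𝒯).S w ⟶ K} (h : HRing.of (stdEven 𝒯) K w a = 0) :
    a = 0 := by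
  apply of_injective (T := 𝒯)
  rw [h]
  exact (map_zero (DirectSum.of ((stdEven 𝒯).Gr K) w)).symm

/-- `π_{2*} B` has no `p`-torsion -/
theorem tf (hD : MUUniv e D) (hA : MUAll D) (hb : IsBPMon p b) :
    ∀ y : HRing (stdEven 𝒯) B, (p : HRing (stdEven 𝒯) B) * y = 0 → y = 0 := by
  intro y hy
  have h5 : (p : HRing (stdEven 𝒯) B) * y = (p : ℤ) • y := by
    rw [zsmul_eq_mul, Int.cast_natCast]
  rw [h5] at hy
  refine DFinsupp.ext fun w => ?_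
  refine (good_bp hD hA hb).tfE w (y w) ?_
  have h6 : ((p : ℤ) • y : HRing (stdEven 𝒯) B) w = (p : ℤ) • (y w : (stdEven 𝒯).S w ⟶ B) :=
    DFinsupp.zsmul_apply _ _ _
  rw [← h6, hy]
  rfl

/-- `π_odd B` is `p`-divisible -/
theorem odd_div (hD : MUUniv e D) (hA : MUAll D) (hb : IsBPMon p b) (k : ℤ)
    (a : (𝟙_ 𝒯)⟦2 * k + 1⟧ ⟶ B) : ∃ c, a = (p : ℤ) • c :=
  (good_bp hD hA hb).oddDiv k a

/-- `π_odd B` has no `p`-torsion -/
theorem odd_tf (hD : MUUniv e D) (hA : MUAll D) (hb : IsBPMon p b) (k : ℤ)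
    (a : (𝟙_ 𝒯)⟦2 * k + 1⟧ ⟶ B) (h : (p : ℤ) • a = 0) : a = 0 :=
  (good_bp hD hA hb).oddTf k a h

end bp

end Vale.Agent.P221.H746
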