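import Vale.Agent.P221.E.Defs
import Vale.Agent.P221.H509.DCHom
import Vale.Agent.P221.T.H769.DCb
import Vale.Agent.P251.S.Conv4

/-!
# P221, part E, leaf (Z): the groups `π_* (R ⊗ X)` are derived `p`-complete

* `dc_pi_mod` : `DC p (A ⟶ R ⊗ Y)`, `A` a sphere, `Y` a `p`-complete bounded below `R`-module, `R ⊗ R`
  with a basis over `R` which is finite in each degree;
* `OpSub.grp` : the subgroup of `A ⟶ R ⊗ X`; `Quo.hom` : `q.φ` as a homomorphism;
* `dc_of_fl` : the subgroup is derived `p`-complete if `G` has a filtration with derived `p`-complete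
  quotients; `dc_of_fl_top`;
* `OpSub.sm_mem`, `Quo.φ_sm` : `G` is stable under `ℤ_p`, and `q.φ` is `ℤ_p`-linear.
-/

open CategoryTheory MonoidalCategory MonObj Limits Pretriangulated
open Vale.Agent.P251.S Vale.Agent.P251.T Vale.Agent.P251.M
open Vale.Agent.P221.H658 (rb)
open Vale.Agent.P221.H509 (DC)
open Vale.Agent.P221.T.H769 (Uniq uniq_of_dc)

set_option linter.unusedSectionVars false

universe u

namespace Vale.Agent.P221.E

/-- the scalar multiplication on a derived complete subgroup of a derived complete group -/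
theorem _root_.Vale.Agent.P221.H509.DC.sm_mem {p : ℕ} [Fact p.Prime] {G : Type*} [AddCommGroup G]
    (h : DC p G) {K : AddSubgroup G} (hK : DC p K) (c : ℤ_[p]) {y : G} (hy : y ∈ K) :
    h.sm c y ∈ K := by
  have h1 := hK.map_sm h K.subtype c ⟨y, hy⟩
  have h2 : h.sm c y = (hK.sm c ⟨y, hy⟩ : K) := h1.symm
  rw [h2]
  exact (hK.sm c ⟨y, hy⟩).2

variable {T : Type u} [Category.{0} T] [Preadditive T] [HasZeroObject T]
    [HasShift T ℤ] [∀ n : ℤ, (shiftFunctor T n).Additive] [Pretriangulated T] [IsTriangulated T]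
    [MonoidalCategory T] [SymmetricCategory T] [TensorTriangulated T] [MonoidalClosed T]
    [HasCoproducts.{0} T] [HasProducts.{0} T] [StableCat T]

section proj

open Classical in
/-- the projection to a summand -/
noncomputable def pj {J : Type} (S : J → T) (β : J) : (∐ S) ⟶ S β :=
  Sigma.desc fun j => if h : j = β then eqToHom (by rw [h]) else 0

theorem ι_pj_same {J : Type} (S : J → T) (β : J) : Sigma.ι S β ≫ pj S β = 𝟙 _ := by
  rw [pj, Sigma.ι_desc, dif_pos rfl, eqToHom_refl]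

theorem ι_pj_ne {J : Type} (S : J → T) {a β : J} (h : a ≠ β) : Sigma.ι S a ≫ pj S β = 0 := by
  rw [pj, Sigma.ι_desc, dif_neg h]

end proj

/-- `S ⊗ Y ≅ Y⟦n⟧` for `S ≅ 𝟙⟦n⟧` -/
theorem nonempty_sph_tensor {S : T} {n : ℤ} (e : S ≅ (𝟙_ T)⟦n⟧) (Y : T) :
    Nonempty (S ⊗ Y ≅ Y⟦n⟧) := by
  obtain ⟨e'⟩ := exists_sphere_tensor Y n
  exact ⟨whiskerRightIso e Y ≪≫ e'⟩

section dc

variable {p : ℕ} {C : T} {i : 𝟙_ T ⟶ C} {δ : C ⟶ (𝟙_ T)⟦(1 : ℤ)⟧}
    (hC : Triangle.mk ((p : ℤ) • 𝟙 (𝟙_ T)) i δ ∈ distTriang T)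

include hC

/-- `π_* ((∐ S) ⊗ Y)` for a locally finite family of spheres -/
theorem dc_pi_coprod {J : Type} (S : J → T) (d : J → ℤ) (hd : ∀ j, Nonempty (S j ≅ (𝟙_ T)⟦d j⟧))
    (hfin : ∀ n : ℤ, {j | d j ≤ n}.Finite) {Y : T} {m : ℤ} (hm : Conn m Y)
    (hY : H395.PComplete p Y) {A : T} (hA : IsSphere A) : DC p (A ⟶ (∐ S) ⊗ Y) := by
  classical
  have hA' := hA
  obtain ⟨n, ⟨eA⟩⟩ := hA'
  let F : Finset J := (hfin (n - m)).toFinset
  have hz : ∀ j, j ∉ F → ∀ f : A ⟶ S j ⊗ Y, f = 0 := by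
    intro j hj f
    have h1 : n - m < d j := by
      by_contra h
      exact hj ((Set.Finite.mem_toFinset _).2 (not_lt.1 h))
    obtain ⟨e⟩ := nonempty_sph_tensor (hd j).some Y
    have h2 : Conn (m + d j) (S j ⊗ Y) := (hm.shift (d j) _ rfl).of_iso e.symm
    have h3 := h2 n (by omega) (eA.inv ≫ f)
    rw [← cancel_epi eA.inv, h3, comp_zero]
  have hdc : ∀ j, Uniq p (A ⟶ S j ⊗ Y) := by
    intro j
    obtain ⟨e⟩ := nonempty_sph_tensor (hd j).some Y
    exact uniq_of_dc (H509.dc_hom hC ((hY.shift (d j)).of_iso e.symm) A)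
  have hsame : ∀ j, (Sigma.ι S j ▷ Y) ≫ pj S j ▷ Y = 𝟙 _ := fun j => by
    rw [← comp_whiskerRight, ι_pj_same, id_whiskerRight]
  have hne : ∀ j k, j ≠ k → (Sigma.ι S j ▷ Y) ≫ pj S k ▷ Y = 0 := fun j k h => by
    rw [← comp_whiskerRight, ι_pj_ne S h, MonoidalPreadditive.zero_whiskerRight]
  have hsum : ∀ x : A ⟶ (∐ S) ⊗ Y, x = ∑ j ∈ F, (x ≫ pj S j ▷ Y) ≫ Sigma.ι S j ▷ Y := by
    intro x
    obtain ⟨s, g, rfl⟩ := compact_sumR Y S hA x
    have h1 : ∀ k, (∑ i ∈ s, g i ≫ Sigma.ι S i ▷ Y) ≫ pj S k ▷ Y = if k ∈ s then g k else 0 := by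
      intro k
      rw [Preadditive.sum_comp]
      by_cases hk : k ∈ s
      · rw [if_pos hk, Finset.sum_eq_single k]
        · rw [Category.assoc, hsame k, Category.comp_id]
        · intro j _ hj
          rw [Category.assoc, hne j k hj, comp_zero]
        · exact fun h => absurd hk h
      · rw [if_neg hk]
        refine Finset.sum_eq_zero fun j hj => ?_
        rw [Category.assoc, hne j k (fun h => hk (h ▸ hj)), comp_zero]
    simp only [h1]
    have h2 : ∀ k ∈ s, k ∉ F → g k ≫ Sigma.ι S k ▷ Y = 0 := fun k _ hk => by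
      rw [hz k hk (g k), zero_comp]
    have h3 : ∀ k, (if k ∈ s then g k else 0) ≫ Sigma.ι S k ▷ Y =
        if k ∈ s then g k ≫ Sigma.ι S k ▷ Y else 0 := fun k => by
      split_ifs
      · rfl
      · rw [zero_comp]
    simp only [h3]
    rw [← Finset.sum_filter, Finset.filter_mem_eq_inter]
    symm
    refine Finset.sum_subset Finset.inter_subset_right fun k hk hk' => h2 k hk fun h => hk' ?_
    exact Finset.mem_inter.2 ⟨h, hk⟩
  have h1 : Uniq p (∀ j : F, A ⟶ S (j : J) ⊗ Y) := Uniq.pi fun j => hdc j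
  refine (h1.retract (H := A ⟶ (∐ S) ⊗ Y)
    { toFun := fun x j => x ≫ pj S j ▷ Y
      map_zero' := funext fun j => zero_comp
      map_add' := fun x y => funext fun j => Preadditive.add_comp _ _ _ _ _ _ }
    { toFun := fun g => ∑ j : F, g j ≫ Sigma.ι S (j : J) ▷ Y
      map_zero' := Finset.sum_eq_zero fun j _ => zero_comp
      map_add' := fun x y => by
        rw [← Finset.sum_add_distrib]
        exact Finset.sum_congr rfl fun j _ => Preadditive.add_comp _ _ _ _ _ _ } ?_).dc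
  intro x
  conv_rhs => rw [hsum x]
  rw [← Finset.sum_coe_sort F]
  rfl

/-- **(Z1)** `π_* (R ⊗ Y)` is derived `p`-complete. -/
theorem dc_pi_mod {R : T} [MonObj R] (b : BasR R) (d : b.J → ℤ)
    (hd : ∀ j, Nonempty (b.S j ≅ (𝟙_ T)⟦d j⟧)) (hfin : ∀ n : ℤ, {j | d j ≤ n}.Finite) {Y : T}
    (L : ModStr R Y) {m : ℤ} (hm : Conn m Y) (hY : H395.PComplete p Y) {A : T}
    (hA : IsSphere A) : DC p (A ⟶ R ⊗ Y) := by
  have := b.isIso
  have h3 := H658.isIso_rb L (Sigma.desc b.w) b.isIso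
  exact ((uniq_of_dc (dc_pi_coprod hC b.S d hd hfin hm hY hA)).of_equiv (H := A ⟶ R ⊗ Y)
    { toFun := fun x => x ≫ rb L (Sigma.desc b.w)
      invFun := fun x => x ≫ inv (rb L (Sigma.desc b.w))
      left_inv := fun x => by simp
      right_inv := fun x => by simp
      map_add' := fun x y => Preadditive.add_comp _ _ _ _ _ _ }).dc

end dc

/-! ### Filtrations -/

section fl

variable {R X : T}

/-- the subgroup of `π_* (R ⊗ X)` -/
def OpSub.grp (G : OpSub R X) {A : T} (hA : IsSphere A) : AddSubgroup (A ⟶ R ⊗ X) where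
  carrier := {y | G.mem y}
  zero_mem' := G.zero hA
  neg_mem' {x} hx := by
    have h1 := G.sub hA (G.zero hA) hx
    rwa [zero_sub] at h1
  add_mem' {x y} hx hy := by
    have h1 := G.sub hA hx (G.sub hA (G.zero hA) hy)
    rwa [zero_sub, sub_neg_eq_add] at h1

@[simp] theorem OpSub.mem_grp (G : OpSub R X) {A : T} (hA : IsSphere A) {y : A ⟶ R ⊗ X} :
    y ∈ G.grp hA ↔ G.mem y := Iff.rfl

/-- `q.φ` as a homomorphism -/
def Quo.hom {G : OpSub R X} {Y : T} (q : Quo G Y) {A : T} (hA : IsSphere A) :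
    G.grp hA →+ (A ⟶ R ⊗ Y) where
  toFun y := q.φ y.1
  map_zero' := q.zero hA
  map_add' x y := by
    have h1 := q.sub hA (G.zero hA) y.2
    rw [q.zero hA] at h1
    have h2 := q.sub hA x.2 (G.sub hA (G.zero hA) y.2)
    rw [h1] at h2
    change q.φ (x.1 + y.1) = _
    have h3 : x.1 + y.1 = x.1 - (0 - y.1) := by abel
    rw [h3, h2]
    abel

@[simp] theorem Quo.hom_apply {G : OpSub R X} {Y : T} (q : Quo G Y) {A : T} (hA : IsSphere A)
    (y : G.grp hA) : q.hom hA y = q.φ y.1 := rfl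

theorem Quo.hom_surjective {G : OpSub R X} {Y : T} (q : Quo G Y) {A : T} (hA : IsSphere A) :
    Function.Surjective (q.hom hA) := fun z => by
  obtain ⟨y, hy, h⟩ := q.surj hA z
  exact ⟨⟨y, hy⟩, h⟩

variable {p : ℕ}

/-- **(Z2)** extensions -/
theorem Quo.dc {G : OpSub R X} {Y : T} (q : Quo G Y) {A : T} (hA : IsSphere A)
    (hK : DC p (q.ker.grp hA)) (hY : DC p (A ⟶ R ⊗ Y)) : DC p (G.grp hA) := by
  have h1 : q.ker.grp hA ≤ G.grp hA := fun y hy => hy.1
  refine ((uniq_of_dc hK).ext (uniq_of_dc hY) (AddSubgroup.inclusion h1) (q.hom hA)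
    (AddSubgroup.inclusion_injective h1) (q.hom_surjective hA) fun x => ?_).dc
  constructor
  · intro h
    exact ⟨⟨x.1, ⟨x.2, h⟩⟩, rfl⟩
  · rintro ⟨y, rfl⟩
    exact y.2.2

/-- **(Z2)** the groups in a filtration are derived `p`-complete -/
theorem dc_of_fl {𝒴 : T → Prop} (h𝒴 : ∀ Y, 𝒴 Y → ∀ A : T, IsSphere A → DC p (A ⟶ R ⊗ Y)) {m : ℕ}
    {G : OpSub R X} (hG : Fl 𝒴 m G) {A : T} (hA : IsSphere A) : DC p (G.grp hA) := by
  induction hG with
  | @zero G h =>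
    have h1 : ∀ x : G.grp hA, x = 0 := fun x => Subtype.ext (h A x.1 hA x.2)
    intro a
    refine ⟨fun _ => 0, fun i => ?_, fun b _ => funext fun i => h1 _⟩
    rw [h1 (a i), smul_zero, add_zero]
  | @succ m G Y q hY _ ih => exact q.dc hA ih (h𝒴 Y hY A hA)

theorem dc_of_top {A : T} (hA : IsSphere A) (h : DC p ((OpSub.top R X).grp hA)) :
    DC p (A ⟶ R ⊗ X) := by
  have h1 : (OpSub.top R X).grp hA = ⊤ := by
    ext y
    exact ⟨fun _ => trivial, fun _ => trivial⟩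
  rw [h1] at h
  exact ((uniq_of_dc h).of_equiv AddSubgroup.topEquiv).dc

/-- **(Z2)** `π_* (R ⊗ X)` is derived `p`-complete if it has a filtration with such quotients. -/
theorem dc_of_fl_top {𝒴 : T → Prop} (h𝒴 : ∀ Y, 𝒴 Y → ∀ A : T, IsSphere A → DC p (A ⟶ R ⊗ Y))
    {m : ℕ} (hG : Fl 𝒴 m (OpSub.top R X)) {A : T} (hA : IsSphere A) : DC p (A ⟶ R ⊗ X) :=
  dc_of_top hA (dc_of_fl h𝒴 hG hA)

/-- **(Z3)** `G` is stable under `ℤ_p`. -/
theorem OpSub.sm_mem [Fact p.Prime] (G : OpSub R X) {A : T} (hA : IsSphere A)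
    (hX : DC p (A ⟶ R ⊗ X)) (hG : DC p (G.grp hA)) (c : ℤ_[p]) {y : A ⟶ R ⊗ X} (hy : G.mem y) :
    G.mem (hX.sm c y) := hX.sm_mem hG c hy

/-- **(Z3)** `q.φ` is `ℤ_p`-linear. -/
theorem Quo.φ_sm [Fact p.Prime] {G : OpSub R X} {Y : T} (q : Quo G Y) {A : T} (hA : IsSphere A)
    (hX : DC p (A ⟶ R ⊗ X)) (hG : DC p (G.grp hA)) (hY : DC p (A ⟶ R ⊗ Y)) (c : ℤ_[p])
    {y : A ⟶ R ⊗ X} (hy : G.mem y) : q.φ (hX.sm c y) = hY.sm c (q.φ y) := by
  have h1 := hG.map_sm hY (q.hom hA) c ⟨y, hy⟩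
  have h2 := hG.map_sm hX (G.grp hA).subtype c ⟨y, hy⟩
  rw [Quo.hom_apply, Quo.hom_apply] at h1
  rw [← h1]
  exact congrArg q.φ h2.symm

end fl

end Vale.Agent.P221.E
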