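import Vale.Agent.P221.H746.Z
import Vale.Agent.P221.E.H903.Push
import Vale.Agent.P221.H395.Comp3
import Vale.Agent.P221.H246.GenC

/-!
# P221, part E, leaf (Z4): the subgroups of `[P, X]`, `P` the `p`-completion of `W`

* `OpSub.In_of_completion` : `G.In (c ≫ a) → G.In a`;
* `Quo.rel_of_completion` : `q.Rel (c ≫ a) (c ≫ b) → q.Rel a b`;
* `OpSub.In_comp`, `Quo.rel_comp` : naturality in `W`.
-/

open CategoryTheory MonoidalCategory MonObj Limits Pretriangulated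
open Vale.Agent.P251.S Vale.Agent.P251.T Vale.Agent.P251.M
open Vale.Agent.P221.H658 (rb)
open Vale.Agent.P221.H509 (DC)
open Vale.Agent.P221.T.H769 (Uniq uniq_of_dc)
open Vale.Agent.P251.Q

set_option linter.unusedSectionVars false

universe u

namespace Vale.Agent.P221.E

section alg

variable {p : ℕ} {G H : Type*} [AddCommGroup G] [AddCommGroup H]

/-- a derived complete subgroup which is dense modulo `p` is everything -/
theorem _root_.Vale.Agent.P221.T.H769.Uniq.mem_of_dense (h : Uniq p G) {K : AddSubgroup G}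
    (hK : Uniq p K) (hd : ∀ g : G, ∃ k ∈ K, ∃ g' : G, g = k + p • g') (g : G) : g ∈ K := by
  choose k hk g' hg' using hd
  let y : ℕ → G := fun n => n.rec g fun _ z => g' z
  have hy : ∀ n, y n = k (y n) + p • y (n + 1) := fun n => hg' (y n)
  obtain ⟨x, hx⟩ := hK.exists fun n => ⟨k (y n), hk (y n)⟩
  have h1 : y = fun n => (x n : G) := h.unique fun n => by
    have h2 := congrArg Subtype.val (hx n)
    have h3 : (x n : G) - p • (x (n + 1) : G) = k (y n) := h2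
    rw [h3]
    conv_lhs => rw [hy n]
    rw [add_sub_cancel_right]
  have h4 : g = x 0 := congrFun h1 0
  rw [h4]
  exact (x 0).2

/-- preimages -/
theorem _root_.Vale.Agent.P221.T.H769.Uniq.comap (h : Uniq p G) (hH : Uniq p H)
    {L : AddSubgroup H} (hL : Uniq p L) (f : G →+ H) : Uniq p (L.comap f) := by
  intro g
  obtain ⟨x, hx⟩ := h.exists fun n => (g n : G)
  obtain ⟨l, hl⟩ := hL.exists fun n => ⟨f (g n), (g n).2⟩
  have h1 : (fun n => f (x n)) = fun n => (l n : H) := hH.unique fun n => by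
    have h2 : (l n : H) - p • (l (n + 1) : H) = f (g n) := congrArg Subtype.val (hl n)
    rw [h2, ← hx n, map_sub, map_nsmul]
  have hfx : ∀ n, f (x n) ∈ L := fun n => by
    rw [congrFun h1 n]
    exact (l n).2
  refine ⟨fun n => ⟨x n, hfx n⟩, fun n => Subtype.ext (hx n), fun y hy => ?_⟩
  funext n
  apply Subtype.ext
  have h1 : (fun n => (y n : G)) = x := h.unique fun n => by
    rw [hx n, ← hy n]
    rfl
  exact congrFun h1 n

end alg

variable {T : Type u} [Category.{0} T] [Preadditive T] [HasZeroObject T]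
    [HasShift T ℤ] [∀ n : ℤ, (shiftFunctor T n).Additive] [Pretriangulated T] [IsTriangulated T]
    [MonoidalCategory T] [SymmetricCategory T] [TensorTriangulated T] [MonoidalClosed T]
    [HasCoproducts.{0} T] [HasProducts.{0} T] [StableCat T]

/-! ### Naturality -/

section nat

variable {R X Y : T}

theorem OpSub.In_comp (G : OpSub R X) {W W' : T} (g : W' ⟶ W) {a : W ⟶ X} (h : G.In a) :
    G.In (g ≫ a) := fun A hA w => by
  have h1 := h A hA (w ≫ R ◁ g)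
  rwa [Category.assoc, ← MonoidalCategory.whiskerLeft_comp] at h1

theorem Quo.rel_comp {G : OpSub R X} {q : Quo G Y} {W W' : T} (g : W' ⟶ W) {a : W ⟶ X}
    {b : W ⟶ Y} (h : q.Rel a b) : q.Rel (g ≫ a) (g ≫ b) := fun A hA w => by
  have h1 := h A hA (w ≫ R ◁ g)
  rwa [Category.assoc, Category.assoc, ← MonoidalCategory.whiskerLeft_comp,
    ← MonoidalCategory.whiskerLeft_comp] at h1

end nat

/-! ### Torsion -/

section tf

/-- `π_* ((∐ S) ⊗ Y)` has no `p`-torsion -/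
theorem tf_coprod {p : ℕ} {J : Type} (S : J → T) (hS : ∀ j, IsSphere (S j)) {Y : T}
    (htf : ∀ A : T, IsSphere A → ∀ u : A ⟶ Y, (p : ℤ) • u = 0 → u = 0) {A : T} (hA : IsSphere A)
    (u : A ⟶ (∐ S) ⊗ Y) (hu : (p : ℤ) • u = 0) : u = 0 := by
  classical
  have hsame : ∀ j, (Sigma.ι S j ▷ Y) ≫ pj S j ▷ Y = 𝟙 _ := fun j => by
    rw [← comp_whiskerRight, ι_pj_same, id_whiskerRight]
  have hne : ∀ j k, j ≠ k → (Sigma.ι S j ▷ Y) ≫ pj S k ▷ Y = 0 := fun j k h => by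
    rw [← comp_whiskerRight, ι_pj_ne S h, MonoidalPreadditive.zero_whiskerRight]
  obtain ⟨s, g, rfl⟩ := compact_sumR Y S hA u
  refine Finset.sum_eq_zero fun k hk => ?_
  have h1 : (∑ i ∈ s, g i ≫ Sigma.ι S i ▷ Y) ≫ pj S k ▷ Y = g k := by
    rw [Preadditive.sum_comp, Finset.sum_eq_single k]
    · rw [Category.assoc, hsame k, Category.comp_id]
    · intro j _ hj
      rw [Category.assoc, hne j k hj, comp_zero]
    · exact fun h => absurd hk h
  have h2 : (p : ℤ) • g k = 0 := by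
    rw [← h1, ← Preadditive.zsmul_comp, hu, zero_comp]
  -- desuspend
  obtain ⟨A', hA', i, x, hx⟩ := exists_desusp (hS k) hA (g k)
  have h3 : (p : ℤ) • x = 0 := by
    have h4 : S k ◁ ((p : ℤ) • x) = S k ◁ (0 : A' ⟶ Y) := by
      have h5 : S k ◁ ((p : ℤ) • x) = (p : ℤ) • (S k ◁ x) := (tensorLeft (S k)).map_zsmul
      rw [h5, MonoidalPreadditive.whiskerLeft_zero, ← cancel_epi i.hom, Preadditive.comp_zsmul,
        ← hx, h2, comp_zero]
    exact whiskerLeft_inj' (hS k) h4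
  rw [hx, htf A' hA' x h3, MonoidalPreadditive.whiskerLeft_zero, comp_zero, zero_comp]

/-- `π_* (R ⊗ Y)` has no `p`-torsion, `Y` an `R`-module -/
theorem tf_mod {p : ℕ} {R : T} [MonObj R] (b : BasR R) {Y : T} (L : ModStr R Y)
    (htf : ∀ A : T, IsSphere A → ∀ u : A ⟶ Y, (p : ℤ) • u = 0 → u = 0) {A : T} (hA : IsSphere A)
    (u : A ⟶ R ⊗ Y) (hu : (p : ℤ) • u = 0) : u = 0 := by
  have := b.isIso
  have h3 := H658.isIso_rb L (Sigma.desc b.w) b.isIso
  have h4 := tf_coprod b.S b.sph htf hA (u ≫ inv (rb L (Sigma.desc b.w))) (by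
    rw [← Preadditive.zsmul_comp, hu, zero_comp])
  rw [← cancel_mono (inv (rb L (Sigma.desc b.w))), h4, zero_comp]

end tf

/-! ### Completion -/

section compl

variable {p : ℕ} {C : T} {i : 𝟙_ T ⟶ C} {δ : C ⟶ (𝟙_ T)⟦(1 : ℤ)⟧}
    (hC : Triangle.mk ((p : ℤ) • 𝟙 (𝟙_ T)) i δ ∈ distTriang T)

include hC

/-- `π_* (R ⊗ W)` is dense in `π_* (R ⊗ P)` -/
theorem exists_mod {R W P : T} {c : W ⟶ P} (hc : IsIso (c ▷ C))
    (htf : ∀ A : T, IsSphere A → ∀ u : A ⟶ R ⊗ W, (p : ℤ) • u = 0 → u = 0) {A : T}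
    (hA : IsSphere A) (w : A ⟶ R ⊗ P) :
    ∃ (u : A ⟶ R ⊗ W) (v : A ⟶ R ⊗ P), w = u ≫ R ◁ c + (p : ℤ) • v := by
  have := H395.isIso_whiskerLeft_mod (C := C) R c hc
  obtain ⟨n, ⟨e⟩⟩ := hA
  have e1 : A ≅ ((𝟙_ T)⟦n - 1⟧)⟦(1 : ℤ)⟧ :=
    e ≪≫ (shiftFunctorAdd' T (n - 1) 1 n (by ring)).app _
  obtain ⟨u, hu⟩ := ModP.exists_lift hC (ModP.torsionFree_shift e1
    (htf _ (isSphere_one_shift _))) ((w ≫ (ρ_ _).inv ≫ (_ ◁ i)) ≫ inv ((R ◁ c) ▷ C))
  have h1 : (w - u ≫ R ◁ c) ≫ (ρ_ (R ⊗ P)).inv ≫ ((R ⊗ P) ◁ i) = 0 := by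
    have h2 := congrArg (fun f => f ≫ ((R ◁ c) ▷ C)) hu
    simp only [Category.assoc, IsIso.inv_hom_id, Category.comp_id] at h2
    rw [Preadditive.sub_comp, h2, Category.assoc, ← H246.reduction_naturality (R ◁ c) i]
    simp only [Category.assoc, sub_self]
  obtain ⟨v, hv⟩ := ModP.exists_zsmul_of_comp_eq_zero hC _ h1
  exact ⟨u, v, by rw [← hv, add_sub_cancel]⟩

/-- a derived complete subgroup of `π_* (R ⊗ P)` which contains the image of `π_* (R ⊗ W)` is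
everything -/
theorem mem_of_completion {R W P : T} {c : W ⟶ P} (hc : IsIso (c ▷ C))
    (htf : ∀ A : T, IsSphere A → ∀ u : A ⟶ R ⊗ W, (p : ℤ) • u = 0 → u = 0) {A : T}
    (hA : IsSphere A) (hP : DC p (A ⟶ R ⊗ P)) {K : AddSubgroup (A ⟶ R ⊗ P)} (hK : Uniq p K)
    (h : ∀ u : A ⟶ R ⊗ W, u ≫ R ◁ c ∈ K) (w : A ⟶ R ⊗ P) : w ∈ K := by
  refine (uniq_of_dc hP).mem_of_dense hK (fun g => ?_) w
  obtain ⟨u, v, hv⟩ := exists_mod hC hc htf hA g
  exact ⟨_, h u, v, by rw [hv, natCast_zsmul]⟩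

variable {R X Y W P : T} {c : W ⟶ P} (hc : IsIso (c ▷ C))
    (htf : ∀ A : T, IsSphere A → ∀ u : A ⟶ R ⊗ W, (p : ℤ) • u = 0 → u = 0)
    (hP : ∀ A : T, IsSphere A → DC p (A ⟶ R ⊗ P))
    (hX : ∀ A : T, IsSphere A → DC p (A ⟶ R ⊗ X))

include hc htf hP

section
include hX

/-- **(Z4)** -/
theorem OpSub.In_of_completion {G : OpSub R X}
    (hG : ∀ (A : T) (hA : IsSphere A), DC p (G.grp hA)) {a : P ⟶ X} (h : G.In (c ≫ a)) :
    G.In a := fun A hA w => by
  let f : (A ⟶ R ⊗ P) →+ (A ⟶ R ⊗ X) :=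
    { toFun := fun x => x ≫ R ◁ a
      map_zero' := zero_comp
      map_add' := fun x y => Preadditive.add_comp _ _ _ _ _ _ }
  refine mem_of_completion hC hc htf hA (hP A hA) (K := (G.grp hA).comap f)
    ((uniq_of_dc (hP A hA)).comap (uniq_of_dc (hX A hA)) (uniq_of_dc (hG A hA)) f)
    (fun u => ?_) w
  have h1 := h A hA u
  rwa [MonoidalCategory.whiskerLeft_comp, ← Category.assoc] at h1

/-- **(Z4)** -/
theorem OpSub.In_iff_completion {G : OpSub R X}
    (hG : ∀ (A : T) (hA : IsSphere A), DC p (G.grp hA)) {a : P ⟶ X} :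
    G.In (c ≫ a) ↔ G.In a :=
  ⟨OpSub.In_of_completion hC hc htf hP hX hG, G.In_comp c⟩

end

variable (hY : ∀ A : T, IsSphere A → DC p (A ⟶ R ⊗ Y))

include hY

/-- **(Z4)** -/
theorem Quo.rel_of_completion {G : OpSub R X} {q : Quo G Y} {a : P ⟶ X} {b : P ⟶ Y}
    (ha : G.In a) (h : q.Rel (c ≫ a) (c ≫ b)) : q.Rel a b := fun A hA w => by
  let f : (A ⟶ R ⊗ P) →+ (A ⟶ R ⊗ Y) :=
    { toFun := fun x => q.hom hA ⟨x ≫ R ◁ a, ha A hA x⟩ - x ≫ R ◁ b
      map_zero' := by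
        have h1 : (⟨(0 : A ⟶ R ⊗ P) ≫ R ◁ a, ha A hA 0⟩ : G.grp hA) = 0 := Subtype.ext zero_comp
        rw [h1, map_zero, zero_comp, sub_zero]
      map_add' := fun x y => by
        have h1 : (⟨(x + y) ≫ R ◁ a, ha A hA (x + y)⟩ : G.grp hA) =
            ⟨x ≫ R ◁ a, ha A hA x⟩ + ⟨y ≫ R ◁ a, ha A hA y⟩ :=
          Subtype.ext (Preadditive.add_comp _ _ _ _ _ _)
        rw [h1, map_add, Preadditive.add_comp]
        abel }
  have h2 : w ∈ f.ker := by
    refine mem_of_completion hC hc htf hA (hP A hA)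
      ((uniq_of_dc (hP A hA)).ker (uniq_of_dc (hY A hA)) f f.ker fun x => Iff.rfl) (fun u => ?_) w
    have h1 := h A hA u
    rw [MonoidalCategory.whiskerLeft_comp, MonoidalCategory.whiskerLeft_comp, ← Category.assoc,
      ← Category.assoc] at h1
    exact sub_eq_zero.2 h1
  exact sub_eq_zero.1 h2

end compl

end Vale.Agent.P221.E
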