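import Vale.Agent.P221.H746.Z4
import Vale.Agent.P221.E.H509.Sys
import Vale.Agent.P221.E.H903.T
import Vale.Agent.P221.E.H817.Clo

/-!
# P221, part E, leaf (Z5): exactness for free objects and for completions

* `uu_of_free` : `UU 𝒴 R X W` for a basis of `R ⊗ W` and `[W, X]` the primitive elements;
* `u0_of_completion`, `u1_of_completion`, `u2_of_completion`, `uu_of_completion` : `c : W ⟶ P` an
  isomorphism mod `p`, `X` and the `Y ∈ 𝒴` `p`-complete with derived `p`-complete `π_* (R ⊗ -)`.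
-/

open CategoryTheory MonoidalCategory MonObj Limits Pretriangulated
open Vale.Agent.P251.S Vale.Agent.P251.T Vale.Agent.P251.M
open Vale.Agent.P221.H509 (DC)

set_option linter.unusedSectionVars false

universe u

namespace Vale.Agent.P221.E

variable {T : Type u} [Category.{0} T] [Preadditive T] [HasZeroObject T]
    [HasShift T ℤ] [∀ n : ℤ, (shiftFunctor T n).Additive] [Pretriangulated T] [IsTriangulated T]
    [MonoidalCategory T] [SymmetricCategory T] [TensorTriangulated T] [MonoidalClosed T]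
    [HasCoproducts.{0} T] [HasProducts.{0} T] [StableCat T]

/-- **(Z5a)** -/
theorem uu_of_free {R X W : T} [MonObj R] (b : FreeOn R W) (c : BasR R) (hX : Col R W X)
    {𝒴 : T → Prop} (h𝒴 : ∀ Y, 𝒴 Y → HasAct R Y) : E.H509.UU 𝒴 R X W where
  bot h _ ha := b.u0 c hX (h.mono h𝒴) ha
  ex q hY _ _ ha := b.u1 c q (h𝒴 _ hY) ha
  onto q _ hk y := b.u2 c hX q (hk.mono h𝒴) y

variable {p : ℕ} {C : T} {i : 𝟙_ T ⟶ C} {δ : C ⟶ (𝟙_ T)⟦(1 : ℤ)⟧}
    (hC : Triangle.mk ((p : ℤ) • 𝟙 (𝟙_ T)) i δ ∈ distTriang T)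
    {R X W P : T} {c : W ⟶ P} (hc : IsIso (c ▷ C)) (hXc : H395.PComplete p X)

include hC hc hXc

theorem u0_of_completion {G : OpSub R X} (h : ∀ a : W ⟶ X, G.In a → a = 0)
    (a : P ⟶ X) (ha : G.In a) : a = 0 :=
  (H395.bij_of_isIso_mod hC c hc hXc).injective (by
    change c ≫ a = c ≫ 0
    rw [h _ (G.In_comp c ha), comp_zero])

variable (htf : ∀ A : T, IsSphere A → ∀ u : A ⟶ R ⊗ W, (p : ℤ) • u = 0 → u = 0)
    (hP : ∀ A : T, IsSphere A → DC p (A ⟶ R ⊗ P))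

include htf hP

section

variable {Y : T} (hYc : H395.PComplete p Y) (hY : ∀ A : T, IsSphere A → DC p (A ⟶ R ⊗ Y))

include hYc hY

theorem u1_of_completion {G : OpSub R X} (q : Quo G Y)
    (h : ∀ a : W ⟶ X, G.In a → ∃! b : W ⟶ Y, q.Rel a b) (a : P ⟶ X) (ha : G.In a) :
    ∃! b : P ⟶ Y, q.Rel a b := by
  obtain ⟨b', hb', hu⟩ := h _ (G.In_comp c ha)
  obtain ⟨b, hb⟩ := (H395.bij_of_isIso_mod hC c hc hYc).surjective b'
  change c ≫ b = b' at hb
  subst hb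
  refine ⟨b, Quo.rel_of_completion hC hc htf hP hY ha hb', fun b₂ hb₂ => ?_⟩
  exact (H395.bij_of_isIso_mod hC c hc hYc).injective (hu _ (Quo.rel_comp c hb₂))

theorem u2_of_completion (hX : ∀ A : T, IsSphere A → DC p (A ⟶ R ⊗ X)) {G : OpSub R X}
    (hG : ∀ (A : T) (hA : IsSphere A), DC p (G.grp hA)) (q : Quo G Y)
    (h : ∀ b : W ⟶ Y, ∃ a : W ⟶ X, G.In a ∧ q.Rel a b) (b : P ⟶ Y) :
    ∃ a : P ⟶ X, G.In a ∧ q.Rel a b := by
  obtain ⟨a', ha', hr⟩ := h (c ≫ b)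
  obtain ⟨a, ha⟩ := (H395.bij_of_isIso_mod hC c hc hXc).surjective a'
  change c ≫ a = a' at ha
  subst ha
  have h1 := OpSub.In_of_completion hC hc htf hP hX hG ha'
  exact ⟨a, h1, Quo.rel_of_completion hC hc htf hP hY h1 hr⟩

end

/-- **(Z5b)** -/
theorem uu_of_completion {𝒴 : T → Prop} (h𝒴 : ∀ Y, 𝒴 Y → H395.PComplete p Y)
    (h𝒴' : ∀ Y, 𝒴 Y → ∀ A : T, IsSphere A → DC p (A ⟶ R ⊗ Y))
    (hX : ∀ A : T, IsSphere A → DC p (A ⟶ R ⊗ X)) (h : E.H509.UU 𝒴 R X W) :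
    E.H509.UU 𝒴 R X P where
  bot hG a ha := u0_of_completion hC hc hXc (fun a ha => h.bot hG a ha) a ha
  ex q hY hk a ha := u1_of_completion hC hc hXc htf hP (h𝒴 _ hY) (h𝒴' _ hY) q
    (fun a ha => h.ex q hY hk a ha) a ha
  onto {m G Y} q hY hk b := by
    refine u2_of_completion hC hc hXc htf hP (h𝒴 _ hY) (h𝒴' _ hY) hX (G := G) (fun A hA => ?_) q
      (fun b => h.onto q hY hk b) b
    exact dc_of_fl h𝒴' (Fl.succ q hY hk) hA

end Vale.Agent.P221.E
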