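import Vale.Agent.P221.H746.Z
import Vale.Agent.P221.H246.BPC
import Vale.Agent.P221.H246.EtaT
import Vale.Agent.P251.M.KBasis

/-!
# P221, part E, leaf (Z): the basis of `BP ⊗ BP` over the second factor

* `BasR.ofRBasis` : from a basis over the first factor;
* `basB hD hb : BasR B`, `finite_dB` : it is finite in each degree;
* `dc_pi_B` : `π_* (B ⊗ Y)` is derived `p`-complete, `Y` a `p`-complete bounded below `B`-module.
-/

open CategoryTheory MonoidalCategory MonObj Limits Pretriangulated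

set_option linter.unusedSectionVars false

universe u

namespace Vale.Agent.P221.E

open Vale.Agent.P251 Vale.Agent.P251.S Vale.Agent.P251.T Vale.Agent.P251.M Vale.Agent.P251.F
  Vale.Agent.P251.I EvenSpheres Vale.Agent.P257.H80 Vale.Agent.P093.Nak Vale.Agent.P221.H246
open Vale.Agent.P221.H658 (rb rb_braid)
open Vale.Agent.P221.H509 (DC)

variable {T : Type u} [Category.{0} T] [Preadditive T] [HasZeroObject T]
    [HasShift T ℤ] [∀ n : ℤ, (shiftFunctor T n).Additive] [Pretriangulated T] [IsTriangulated T]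
    [MonoidalCategory T] [SymmetricCategory T] [TensorTriangulated T] [MonoidalClosed T]
    [HasCoproducts.{0} T] [HasProducts.{0} T] [StableCat T]

/-- a basis over the first factor gives a basis over the second factor -/
noncomputable def BasR.ofRBasis {R : T} [MonObj R] [IsCommMonObj R] {J : Type}
    (b : RBasis (stdEven T) R R J) : BasR R where
  J := J
  S j := (stdEven T).S (b.k j)
  sph j := isSphere_std (b.k j)
  w j := b.w j ≫ (β_ R R).hom
  isIso := by
    have h1 := b.isIso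
    have e1 : (fun j => lin (ModStr.free R R) (b.w j)) =
        fun j => (FM.bind (b.w j) : R ⊗ (stdEven T).S (b.k j) ⟶ R ⊗ R) := rfl
    rw [e1, isIso_desc_bind_iff] at h1
    have e2 : (Sigma.desc fun j => b.w j ≫ (β_ R R).hom) = Sigma.desc b.w ≫ (β_ R R).hom := by
      apply Sigma.hom_ext
      intro j
      rw [Sigma.ι_desc, Sigma.ι_desc_assoc]
    rw [e2, rb_braid]
    infer_instance

theorem finite_dB (p : ℕ) [hp : Fact p.Prime] (n : ℤ) : {a : ℕ →₀ ℕ | 2 * dB p a ≤ n}.Finite := by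
  refine Set.Finite.subset ((Finset.range (n.toNat + 1)).finsupp
    (fun _ => Finset.range (n.toNat + 1))).finite_toSet ?_
  intro a ha
  have ha' : 2 * dB p a ≤ n := ha
  have h0 := dB_nonneg (p := p) a
  have h1 : ∀ i ∈ a.support, ((a i : ℕ) : ℤ) * ((i : ℤ) + 1) ≤ dB p a := by
    intro i hi
    have h2 : ∀ i : ℕ, ((i : ℤ) + 1) ≤ (p : ℤ) ^ (i + 1) - 1 := fun i => by
      have h3 : i + 1 < p ^ (i + 1) := Nat.lt_pow_self hp.out.one_lt
      have h4 : ((i + 1 : ℕ) : ℤ) < ((p ^ (i + 1) : ℕ) : ℤ) := by exact_mod_cast h3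
      push_cast at h4
      omega
    rw [dB, Finsupp.weight_apply, Finsupp.sum]
    refine le_trans ?_ (Finset.single_le_sum (f := fun i => a i • ((p : ℤ) ^ (i + 1) - 1))
      (fun j _ => nsmul_nonneg (by have := h2 j; omega) _) hi)
    rw [nsmul_eq_mul]
    exact mul_le_mul_of_nonneg_left (h2 i) (by positivity)
  rw [Finset.mem_coe, Finset.mem_finsupp_iff]
  constructor
  · intro i hi
    have h2 := h1 i hi
    have h3 : 1 ≤ a i := Nat.one_le_iff_ne_zero.2 (Finsupp.mem_support_iff.1 hi)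
    have h4 : (1 : ℤ) ≤ a i := by exact_mod_cast h3
    rw [Finset.mem_range]
    have h5 : (i : ℤ) + 1 ≤ n := by nlinarith
    omega
  · intro i _
    rw [Finset.mem_range]
    by_cases hi : i ∈ a.support
    · have h2 := h1 i hi
      have h5 : (a i : ℤ) ≤ n := by nlinarith
      omega
    · rw [Finsupp.notMem_support_iff.1 hi]
      omega

variable {D : MUData T} {F : SpaceFunctor T} {e : F.S.obj CCF ≅ (stdEven T).L}
  {p : ℕ} [hp : Fact p.Prime] {B : T} [MonObj B] [IsCommMonObj B] {b : D.R ⟶ B} [IsMonHom b]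

/-- the basis of `B ⊗ B` over the second factor -/
noncomputable def basB (hD : MUUniv e D) (hb : IsBPMon p b) : BasR B :=
  BasR.ofRBasis (rbB hD hb)

theorem basB_sph (hD : MUUniv e D) (hb : IsBPMon p b) (a : ℕ →₀ ℕ) :
    Nonempty ((basB hD hb).S a ≅ (𝟙_ T)⟦2 * dB p a⟧) := ⟨stdSph (dB p a)⟩

/-- **(Z1) for `BP`.** -/
theorem dc_pi_B (hD : MUUniv e D) (hb : IsBPMon p b) {C : T} {i : 𝟙_ T ⟶ C}
    {δ : C ⟶ (𝟙_ T)⟦(1 : ℤ)⟧} (hC : Triangle.mk ((p : ℤ) • 𝟙 (𝟙_ T)) i δ ∈ distTriang T)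
    {Y : T} (L : ModStr B Y) {m : ℤ} (hm : Conn m Y) (hY : H395.PComplete p Y) {A : T}
    (hA : IsSphere A) : DC p (A ⟶ B ⊗ Y) :=
  dc_pi_mod hC (basB hD hb) (fun a : ℕ →₀ ℕ => 2 * dB p a) (basB_sph hD hb) (finite_dB p) L hm hY hA

end Vale.Agent.P221.E
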