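import Vale.Agent.P221.H746.Z5
import Vale.Agent.P221.H746.ZBP
import Vale.Agent.P221.H746.Kap
import Vale.Agent.P221.E.H817.ColBP
import Vale.Agent.P221.H509.GrLin
import Vale.Agent.P221.T.H924.Compl
import Vale.Agent.P221.Loc.Mod

/-!
# P221, part E, leaf (Z6): `UU` for the spheres and for the suspensions of the complete
Brown-Peterson spectrum

`B` the Brown-Peterson monoid, `P` its `p`-completion.

* `Cls p R` : the class of the `p`-complete bounded below `R`-modules; `dc_cls`;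
* `conn_bp`, `tf_bp` : `π_* B` is concentrated in degrees `≥ 0` and torsion free;
* `uu_unit`, `uu_self`, `uu_comp` : `UU 𝒴 B X (𝟙⟦k⟧)`, `UU 𝒴 B X (B⟦k⟧)`, `UU 𝒴 B X (P⟦k⟧)`.
-/

open CategoryTheory MonoidalCategory MonObj Limits Pretriangulated

set_option linter.unusedSectionVars false

universe u

namespace Vale.Agent.P221.E

open Vale.Agent.P251 Vale.Agent.P251.S Vale.Agent.P251.T Vale.Agent.P251.M Vale.Agent.P251.F
  Vale.Agent.P251.I EvenSpheres Vale.Agent.P257.H80 Vale.Agent.P221.H246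
open Vale.Agent.P221.H509 (DC)
open Vale.Agent.P257.H762 Vale.Agent.P093.N0

variable {T : Type u} [Category.{0} T] [Preadditive T] [HasZeroObject T]
    [HasShift T ℤ] [∀ n : ℤ, (shiftFunctor T n).Additive] [Pretriangulated T] [IsTriangulated T]
    [MonoidalCategory T] [SymmetricCategory T] [TensorTriangulated T] [MonoidalClosed T]
    [HasCoproducts.{0} T] [HasProducts.{0} T] [StableCat T]

/-- the class of the `p`-complete bounded below `R`-modules -/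
def Cls (p : ℕ) (R : T) [MonObj R] (Y : T) : Prop :=
  Nonempty (ModStr R Y) ∧ H395.PComplete p Y ∧ ∃ m : ℤ, Conn m Y

/-- modules have unital actions -/
theorem hasAct_of_modStr {R Y : T} [MonObj R] (L : ModStr R Y) : HasAct R Y :=
  ⟨L.act, by
    unfold Vale.Agent.P093.Nak.un
    rw [Category.assoc, L.one_act, Iso.inv_hom_id]⟩

/-- shifts of objects with torsion free homotopy -/
theorem tf_shift {p : ℕ} {R : T}
    (htf : ∀ A : T, IsSphere A → ∀ u : A ⟶ R, (p : ℤ) • u = 0 → u = 0) (k : ℤ) (A : T)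
    (hA : IsSphere A) (u : A ⟶ R⟦k⟧) (hu : (p : ℤ) • u = 0) : u = 0 := by
  let e : (R⟦k⟧)⟦-k⟧ ≅ R := (shiftFunctorCompIsoId T k (-k) (by ring)).app R
  have h1 := htf _ (hA.shift (-k)) (u⟦-k⟧' ≫ e.hom) (by
    rw [← Preadditive.zsmul_comp, ← Functor.map_zsmul, hu, Functor.map_zero, zero_comp])
  have h2 : u⟦-k⟧' = 0 := by
    rw [← cancel_mono e.hom, h1, zero_comp]
  exact (shiftFunctor T (-k)).map_injective (by rw [h2, Functor.map_zero])

/-- spheres -/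
theorem tf_of_good {p : ℕ} {R : T} (h : H746.Good p R) (A : T) (hA : IsSphere A) (u : A ⟶ R)
    (hu : (p : ℤ) • u = 0) : u = 0 := by
  obtain ⟨n, ⟨e⟩⟩ := hA
  have h0 : (p : ℤ) • (e.inv ≫ u) = 0 := by rw [← Preadditive.comp_zsmul, hu, comp_zero]
  have h1 : e.inv ≫ u = 0 := by
    obtain ⟨l, rfl | rfl⟩ := Int.even_or_odd' n
    · have h2 := h.tfE l ((stdSph l).hom ≫ e.inv ≫ u) (by
        rw [← Preadditive.comp_zsmul, h0, comp_zero])
      rw [← cancel_epi (stdSph l).hom, h2, comp_zero]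
    · exact h.oddTf l _ h0
  rw [← cancel_epi e.inv, h1, comp_zero]

variable {D : MUData T} {F : SpaceFunctor T} {e : F.S.obj CCF ≅ (stdEven T).L}
  {p : ℕ} [hp : Fact p.Prime] {B : T} [MonObj B] [IsCommMonObj B] {b : D.R ⟶ B} [IsMonHom b]

/-- `π_k B = 0` for `k < 0` -/
theorem conn_bp (hD : MUUniv e D) (hb : IsBPMon p b) : Conn (0 : ℤ) B := by
  obtain ⟨Rp, _, _, l, _, hl, f, _, g, _, _, hfg, _⟩ := H746.exists_retract hD hb
  have h1 : Conn (0 : ℤ) D.R := BigCell.conn' D.conn_unit (Loc.bigCell_R D)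
  refine Conn.of_retract f g hfg fun k hk y => ?_
  obtain ⟨m, x, hm, hx⟩ := (IsPLoc.isLocPi hl).num k y
  exact H746.zero_of_smul_of_local (IsPLoc.isLoc hl).loc hm y (by rw [hx, h1 k hk x, zero_comp])

theorem tf_bp (hD : MUUniv e D) (hA : MUAll D) (hb : IsBPMon p b) (A : T) (hS : IsSphere A)
    (u : A ⟶ B) (hu : (p : ℤ) • u = 0) : u = 0 := tf_of_good (H746.good_bp hD hA hb) A hS u hu

variable {𝒴 : T → Prop} {m : ℕ} {n : ℤ} {X : T}

/-- **(Z6)** the spheres -/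
theorem uu_unit (hD : MUUniv e D) (hb : IsBPMon p b) (h𝒴 : ∀ Y, 𝒴 Y → HasAct B Y)
    (hn : Conn n X) (hXc : H395.PComplete p X) (hX : Fl 𝒴 m (OpSub.top B X)) (k : ℤ) :
    E.H509.UU 𝒴 B X ((𝟙_ T)⟦k⟧) :=
  uu_of_free (H817.freeOn_one B k) (basB hD hb)
    (H817.col_bp' hD hb (basB hD hb) (H817.freeOn_one B k) hn hXc (hX.mono h𝒴)) h𝒴

/-- **(Z6)** the suspensions of `B` -/
theorem uu_self (hD : MUUniv e D) (hb : IsBPMon p b) (h𝒴 : ∀ Y, 𝒴 Y → HasAct B Y)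
    (hn : Conn n X) (hXc : H395.PComplete p X) (hX : Fl 𝒴 m (OpSub.top B X)) (k : ℤ) :
    E.H509.UU 𝒴 B X (B⟦k⟧) :=
  uu_of_free (H817.freeOn_bp hD hb k) (basB hD hb)
    (H817.col_bp' hD hb (basB hD hb) (H817.freeOn_bp hD hb k) hn hXc (hX.mono h𝒴)) h𝒴

variable {C : T} {i : 𝟙_ T ⟶ C} {δ : C ⟶ (𝟙_ T)⟦(1 : ℤ)⟧}
  (hC : Triangle.mk ((p : ℤ) • 𝟙 (𝟙_ T)) i δ ∈ distTriang T)

include hC

theorem dc_cls (hD : MUUniv e D) (hb : IsBPMon p b) {Y : T} (hY : Cls p B Y) (A : T)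
    (hA : IsSphere A) : DC p (A ⟶ B ⊗ Y) := by
  obtain ⟨⟨L⟩, h1, m, h2⟩ := hY
  exact dc_pi_B hD hb hC L h2 h1 hA

/-- **(Z6)** the suspensions of the completion -/
theorem uu_comp (hD : MUUniv e D) (hA : MUAll D) (hb : IsBPMon p b) {P : T} (MP : ModStr B P)
    (hP : H395.PComplete p P) {cc : B ⟶ P} (hc : IsIso (cc ▷ C)) (h𝒴 : ∀ Y, 𝒴 Y → Cls p B Y)
    (hn : Conn n X) (hXc : H395.PComplete p X) (hX : Fl 𝒴 m (OpSub.top B X)) (k : ℤ) :
    E.H509.UU 𝒴 B X (P⟦k⟧) := by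
  have hPn : Conn (0 : ℤ) P := H395.conn_of_isIso_mod hC cc hc hP (conn_bp hD hb)
  exact uu_of_completion hC (Vale.Agent.P221.T.H924.isIso_shift_mod cc hc k) hXc
    (fun A hS => tf_mod (basB hD hb) (H509.shM (ModStr.self B) k)
      (tf_shift (tf_bp hD hA hb) k) hS)
    (fun A hS => dc_cls hC hD hb ⟨⟨H509.shM MP k⟩, hP.shift k, _, hPn.shift k _ rfl⟩ A hS)
    (fun Y hY => (h𝒴 Y hY).2.1) (fun Y hY => dc_cls hC hD hb (h𝒴 Y hY))
    (fun A hS => dc_of_fl_top (fun Y hY => dc_cls hC hD hb (h𝒴 Y hY)) hX hS)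
    (uu_self hD hb (fun Y hY => hasAct_of_modStr (h𝒴 Y hY).1.some) hn hXc hX k)

end Vale.Agent.P221.E
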